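import Vale.Agent.P300.H921.Mod
import Vale.Agent.P300.Spec.Kap142

/-!
# P300: the lifts of a `G`-set covering of `U` as a value of `Lifts`

`kapU ν`: the node chart `kap ν` of the frozen table with values in the type `U`.
`liftsOf`: from a covering `pr : X0 → U` with the lifts `L ν` over the logarithmic region, deck
rules given by the action of `a ν`, `b ν : G` on `F`, and the local orders.
-/

open Set Topology Filter Complex
open Vale.Agent.P300.H753
open Vale.Agent.P300.H142 (U W kap)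

namespace Vale.Agent.P300.Mod

theorem two_three_mem_U : ((2 : ℂ), (3 : ℂ)) ∈ U := by
  refine ⟨?_, ?_, ?_, ?_, ?_⟩ <;> norm_num

open Classical in
/-- The node chart with values in the type `U`. -/
noncomputable def kapU (ν : Fin 15) (w : ℂ × ℂ) : U :=
  if h : kap ν w ∈ U then ⟨kap ν w, h⟩ else ⟨(2, 3), two_three_mem_U⟩

theorem kapU_val {ν : Fin 15} {w : ℂ × ℂ} (hw : w ∈ W) : (kapU ν w : ℂ × ℂ) = kap ν w := by
  unfold kapU
  rw [dif_pos (Spec.kap_mem ν hw)]

theorem Rp_subset_W : Rp H142.R ⊆ W := fun _ hw => Spec.mem_W_of_mem_R hw.1 hw.2.1 hw.2.2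

theorem injOn_kapU (ν : Fin 15) : InjOn (kapU ν) W := by
  intro w hw w' hw' h
  have h1 := congrArg (Subtype.val) h
  rw [kapU_val hw, kapU_val hw'] at h1
  exact (Spec.bijOn_kap ν).injOn hw hw' h1

theorem isOpen_kapU_image (ν : Fin 15) {V : Set (ℂ × ℂ)} (hVW : V ⊆ W) (hV : IsOpen V) :
    IsOpen (kapU ν '' V) := by
  have hc : ContinuousOn (Spec.kapInv ν) U := fun q hq =>
    (Spec.analyticAt_kapInv ν hq).continuousAt.continuousWithinAt
  have h1 : IsOpen (U ∩ Spec.kapInv ν ⁻¹' V) := hc.isOpen_inter_preimage Spec.isOpen_U hV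
  have h2 : kapU ν '' V = Subtype.val ⁻¹' (U ∩ Spec.kapInv ν ⁻¹' V) := by
    ext y
    constructor
    · rintro ⟨w, hw, rfl⟩
      refine ⟨Subtype.mem _, ?_⟩
      rw [mem_preimage, kapU_val (hVW hw), Spec.kapInv_kap ν (hVW hw)]
      exact hw
    · rintro ⟨-, hy⟩
      refine ⟨_, hy, Subtype.ext ?_⟩
      rw [kapU_val (hVW hy), Spec.kap_kapInv ν y.2]
  rw [h2]
  exact h1.preimage continuous_subtype_val

theorem continuousOn_kapU (ν : Fin 15) : ContinuousOn (kapU ν) W := by
  rw [Topology.IsInducing.subtypeVal.continuousOn_iff]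
  refine ContinuousOn.congr (f := kap ν) (fun w hw =>
    (Spec.analyticAt_kap ν hw).continuousAt.continuousWithinAt) ?_
  intro w hw
  exact kapU_val hw

/-- The lifts of the covering of a `G`-set, as a value of `Lifts`. -/
noncomputable def liftsOf {G F X0 : Type} [Group G] [MulAction G F] [TopologicalSpace X0]
    {pr : X0 → U} (hcov : IsCoveringMap pr) (a b : Fin 15 → G) (L : Fin 15 → ℂ × ℂ → F → X0)
    (L_cont : ∀ ν s, ContinuousOn (fun z => L ν z s) H142.Rt)
    (L_pr : ∀ ν s, ∀ z ∈ H142.Rt, (pr (L ν z s) : ℂ × ℂ) = kap ν (exp z.1, exp z.2))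
    (L_inj : ∀ ν s s', ∀ z ∈ H142.Rt, L ν z s = L ν z s' → s = s')
    (L_surj : ∀ ν, ∀ z ∈ H142.Rt, ∀ y : X0, (pr y : ℂ × ℂ) = kap ν (exp z.1, exp z.2) →
      ∃ s, L ν z s = y)
    (L_u : ∀ ν s, ∀ z ∈ H142.Rt, L ν (z.1 + 2 * Real.pi * I, z.2) s = L ν z (a ν • s))
    (L_v : ∀ ν s, ∀ z ∈ H142.Rt, L ν (z.1, z.2 + 2 * Real.pi * I) s = L ν z (b ν • s))
    (p q : Fin 15 → F → ℕ) (hp : ∀ ν s, 0 < p ν s) (hq : ∀ ν s, 0 < q ν s)
    (hord : ∀ ν s, ∀ k l : ℤ, (a ν ^ k * b ν ^ l) • s = s ↔ (p ν s : ℤ) ∣ k ∧ (q ν s : ℤ) ∣ l) :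
    Lifts H142.R kapU pr F where
  a ν := MulAction.toPerm (a ν)
  b ν := MulAction.toPerm (b ν)
  L ν z w s := L ν (z, w) s
  p := p
  q := q
  node ν := by
    have hmem : ∀ z ∈ H142.Rt, (exp z.1, exp z.2) ∈ W := fun z hz => Spec.exp_mem_W hz
    have hsh1 : ∀ z : ℂ × ℂ, z ∈ H142.Rt → (z.1 + 2 * Real.pi * I, z.2) ∈ H142.Rt := by
      intro z hz
      show (exp (z.1 + 2 * Real.pi * I), exp z.2) ∈ H142.R
      rw [Complex.exp_periodic]
      exact hz
    have hsh2 : ∀ z : ℂ × ℂ, z ∈ H142.Rt → (z.1, z.2 + 2 * Real.pi * I) ∈ H142.Rt := by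
      intro z hz
      show (exp z.1, exp (z.2 + 2 * Real.pi * I)) ∈ H142.R
      rw [Complex.exp_periodic]
      exact hz
    exact
      { opR := Spec.isOpen_R
        kinj := (injOn_kapU ν).mono Rp_subset_W
        kopen := fun V hV hVo => isOpen_kapU_image ν (hV.trans Rp_subset_W) hVo
        loc := hcov.isLocalHomeomorph
        comm := by
          -- a point of `Rt`
          have h0 : ((-1 : ℂ), (-1 : ℂ)) ∈ H142.Rt := by
            intro t ht
            have he : ‖exp (-1 : ℂ)‖ < 1 := by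
              rw [Complex.norm_exp]
              simp
            have key : ∀ z : ℂ, ‖z‖ < 1 → z ≠ t := by
              rintro z hz rfl
              rw [Complex.norm_real, Real.norm_eq_abs] at hz
              exact absurd ht (not_le.2 ((le_abs_self t).trans_lt hz))
            refine ⟨key _ he, key _ he, key _ ?_⟩
            rw [norm_mul]
            exact mul_lt_one_of_nonneg_of_lt_one_left (norm_nonneg _) he he.le
          refine Equiv.ext fun s => ?_
          have e1 := L_u ν s _ (hsh2 _ h0)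
          have e2 := L_v ν s _ (hsh1 _ h0)
          have e3 := L_v ν (a ν • s) _ h0
          have e4 := L_u ν (b ν • s) _ h0
          simp only at e1 e2 e3 e4
          rw [e3] at e1
          rw [e4] at e2
          exact (L_inj ν _ _ _ h0 (e1.symm.trans e2)).symm
        Lcont := fun s => L_cont ν s
        Lpr := fun z hz s => Subtype.ext (by rw [L_pr ν s z hz, kapU_val (hmem z hz)])
        La := fun z hz s => L_u ν s z hz
        Lb := fun z hz s => L_v ν s z hz
        Linj := fun z hz s s' h => L_inj ν s s' z hz h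
        Lsurj := fun z hz y hy => L_surj ν z hz y (by rw [hy, kapU_val (hmem z hz)]) }
  ord ν s := by
    refine ⟨hp ν s, hq ν s, fun k l => ?_⟩
    rw [← hord ν s k l]
    have h1 : (MulAction.toPerm (a ν) : Equiv.Perm F) = MulAction.toPermHom G F (a ν) := rfl
    have h2 : (MulAction.toPerm (b ν) : Equiv.Perm F) = MulAction.toPermHom G F (b ν) := rfl
    rw [h1, h2, ← map_zpow, ← map_zpow, ← map_mul]
    rfl

end Vale.Agent.P300.Mod
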