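import Vale.Agent.P300.H573.Cmp
import Vale.Agent.P300.H753.Dom

/-!
# P300: the local models of the completion of `U_S` over `Y`

`YData`: a space `Y` with an open embedding `inc : U → Y` and charts `kY ν` of the region `R`
covering `Y` (`kY ν = inc ∘ kap ν` on the punctured region, nothing else of `R` lands in `U`).
`Lifts`: the lifts `L ν` of helper753's `Node` over each region, with exponents `p ν s`, `q ν s`.
`Lifts.models`: the value of helper573's `Models` for `inc ∘ pr : X0 → Y`.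
-/

open Set Topology Filter Complex
open Vale.Agent.P300.H753

namespace Vale.Agent.P300.Mod

/-- A point of `ℂ²` as a pair. -/
def toP (x : Fin 2 → ℂ) : ℂ × ℂ := (x 0, x 1)

theorem continuous_toP : Continuous toP :=
  (continuous_apply 0).prodMk (continuous_apply 1)

/-- `toP` as a homeomorphism. -/
def toPH : (Fin 2 → ℂ) ≃ₜ ℂ × ℂ where
  toFun := toP
  invFun w := ![w.1, w.2]
  left_inv x := by funext i; fin_cases i <;> rfl
  right_inv w := rfl
  continuous_toFun := continuous_toP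
  continuous_invFun := by
    refine continuous_pi fun i => ?_
    fin_cases i
    · exact continuous_fst
    · exact continuous_snd

/-- The domain of a piece, `{x | (x 0 ^ p, x 1 ^ q) ∈ R}`. -/
def OmE (R : Set (ℂ × ℂ)) (p q : ℕ) : Set (Fin 2 → ℂ) := {x | toP x ∈ Om R p q}

theorem isOpen_OmE {R : Set (ℂ × ℂ)} (hR : IsOpen R) (p q : ℕ) : IsOpen (OmE R p q) :=
  (isOpen_Om hR p q).preimage continuous_toP

/-- The compactification `Y` of `U` with charts of `R`. -/
structure YData (R : Set (ℂ × ℂ)) {ι U : Type} (kap : ι → ℂ × ℂ → U) (Y : Type)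
    [TopologicalSpace Y] where
  /-- the charts -/
  kY : ι → ℂ × ℂ → Y
  cont : ∀ ν, ContinuousOn (kY ν) R
  inj : ∀ ν, InjOn (kY ν) R
  opn : ∀ ν, ∀ V ⊆ R, IsOpen V → IsOpen (kY ν '' V)
  cover : ∀ y, ∃ ν, ∃ w ∈ R, kY ν w = y
  /-- the inclusion of `U` -/
  inc : U → Y
  inc_inj : Function.Injective inc
  inc_kap : ∀ ν, ∀ w ∈ Rp R, inc (kap ν w) = kY ν w
  bdry : ∀ ν, ∀ w ∈ R, kY ν w ∈ range inc → w ∈ Rp R

/-- The orbits of two commuting permutations. -/
def orb {S : Type} (a b : Equiv.Perm S) (hab : Commute a b) : Setoid S where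
  r s s' := ∃ k l : ℤ, s' = (a ^ k * b ^ l) s
  iseqv := by
    have key : ∀ k l m n : ℤ, a ^ k * b ^ l * (a ^ m * b ^ n) = a ^ (k + m) * b ^ (l + n) := by
      intro k l m n
      have h1 : Commute (b ^ l) (a ^ m) := hab.symm.zpow_zpow l m
      rw [mul_assoc, ← mul_assoc (b ^ l), h1.eq, mul_assoc (a ^ m), ← zpow_add, ← mul_assoc,
        ← zpow_add]
    refine ⟨fun s => ⟨0, 0, by simp⟩, ?_, ?_⟩
    · rintro s s' ⟨k, l, rfl⟩
      refine ⟨-k, -l, ?_⟩
      rw [← Equiv.Perm.mul_apply, key]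
      simp
    · rintro s s' s'' ⟨k, l, rfl⟩ ⟨m, n, rfl⟩
      exact ⟨m + k, n + l, by rw [← Equiv.Perm.mul_apply, key]⟩

/-- The lifts over all the regions, with the local orders of the points of the fibre. -/
structure Lifts (R : Set (ℂ × ℂ)) {ι U X0 : Type} [TopologicalSpace X0] [TopologicalSpace U]
    (kap : ι → ℂ × ℂ → U) (pr : X0 → U) (S : Type) where
  a : ι → Equiv.Perm S
  b : ι → Equiv.Perm S
  L : ι → ℂ → ℂ → S → X0
  p : ι → S → ℕ
  q : ι → S → ℕ
  node : ∀ ν, Node R pr (kap ν) (a ν) (b ν) (L ν)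
  ord : ∀ ν s, Ord (a ν) (b ν) s (p ν s) (q ν s)

section nonsep

/-- A punctured ball of `ℂ` is connected. -/
theorem isConnected_ball_diff (c : ℂ) {r : ℝ} (hr : 0 < r) :
    IsConnected (Metric.ball c r \ {0}) := by
  let e := OpenPartialHomeomorph.univBall (P := ℂ) c r
  have hs : e.source = univ := OpenPartialHomeomorph.univBall_source c r
  have ht : e.target = Metric.ball c r := OpenPartialHomeomorph.univBall_target c hr
  have hcount : ({x : ℂ | e x = 0}).Countable := by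
    refine Set.Subsingleton.countable fun x hx y hy => ?_
    exact e.injOn (hs ▸ mem_univ x) (hs ▸ mem_univ y) (Eq.trans hx (Eq.symm hy))
  have h1 : IsConnected ({x : ℂ | e x = 0}ᶜ) :=
    hcount.isConnected_compl_of_one_lt_rank (by rw [Complex.rank_real_complex]; exact Nat.one_lt_ofNat)
  have h2 := h1.image e (e.continuousOn.mono (by rw [hs]; exact subset_univ _))
  convert h2 using 1
  ext z
  constructor
  · rintro ⟨hz, hz0⟩
    refine ⟨e.symm z, ?_, e.right_inv (ht ▸ hz)⟩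
    intro h
    exact hz0 ((e.right_inv (ht ▸ hz)).symm.trans h)
  · rintro ⟨x, hx, rfl⟩
    exact ⟨ht ▸ e.map_source (hs ▸ mem_univ x), hx⟩

/-- The punctured part is locally non-separating in an open subset of `ℂ²`. -/
theorem nonsep_aux {Ω : Set (Fin 2 → ℂ)} (hΩ : IsOpen Ω) (x : Ω) (W : Set Ω) (hW : W ∈ 𝓝 x) :
    ∃ V ⊆ W, V ∈ 𝓝 x ∧ IsConnected (V ∩ {y : Ω | y.1 0 ≠ 0 ∧ y.1 1 ≠ 0}) := by
  obtain ⟨U, hU, hUW⟩ := mem_nhds_subtype _ _ _ |>.1 hW
  obtain ⟨r, hr, hrU⟩ := Metric.mem_nhds_iff.1 (Filter.inter_mem hU (hΩ.mem_nhds x.2))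
  refine ⟨Subtype.val ⁻¹' (Metric.ball x.1 r), fun y hy => hUW (hrU hy).1, ?_, ?_⟩
  · exact (Metric.isOpen_ball.preimage continuous_subtype_val).mem_nhds (Metric.mem_ball_self hr)
  · have hpi : IsConnected (Set.pi univ fun i : Fin 2 => Metric.ball (x.1 i) r \ {0}) :=
      isConnected_univ_pi.2 fun i => isConnected_ball_diff _ hr
    have heq : (Subtype.val : Ω → (Fin 2 → ℂ)) ''
        (Subtype.val ⁻¹' (Metric.ball x.1 r) ∩ {y : Ω | y.1 0 ≠ 0 ∧ y.1 1 ≠ 0}) =
        Set.pi univ fun i : Fin 2 => Metric.ball (x.1 i) r \ {0} := by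
      ext y
      constructor
      · rintro ⟨z, ⟨h1, h2, h3⟩, rfl⟩
        rw [mem_preimage, ball_pi _ hr] at h1
        intro i _
        fin_cases i
        · exact ⟨h1 0 (mem_univ _), h2⟩
        · exact ⟨h1 1 (mem_univ _), h3⟩
      · intro hy
        obtain ⟨h1, h2⟩ := hy 0 (mem_univ _)
        obtain ⟨h3, h4⟩ := hy 1 (mem_univ _)
        have h5 : y ∈ Metric.ball x.1 r := by
          rw [ball_pi _ hr]
          intro i _
          fin_cases i
          · exact h1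
          · exact h3
        exact ⟨⟨y, (hrU h5).2⟩, ⟨h5, h2, h4⟩, rfl⟩
    refine ⟨?_, ?_⟩
    · have := hpi.nonempty
      rw [← heq] at this
      exact this.of_image
    · rw [← Topology.IsInducing.subtypeVal.isPreconnected_image, heq]
      exact hpi.isPreconnected

end nonsep

/-- The restriction of the map of the piece. -/
noncomputable def th {S X0 : Type} (L : ℂ → ℂ → S → X0) (p q : ℕ) (s : S) (x : Fin 2 → ℂ) : X0 :=
  theta L p q s (toP x)

namespace Lifts

variable {R : Set (ℂ × ℂ)} {ι U X0 S Y : Type} [TopologicalSpace X0] [TopologicalSpace U]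
  [TopologicalSpace Y] {kap : ι → ℂ × ℂ → U} {pr : X0 → U}

section defs

variable (D : Lifts R kap pr S)

/-- The index of the pieces: the orbits of the pairs of monodromies. -/
def I : Type := Σ ν : ι, Quotient (orb (D.a ν) (D.b ν) (D.node ν).comm)

/-- the piece of a point of the fibre -/
def mkI (ν : ι) (s : S) : D.I := ⟨ν, Quotient.mk (orb (D.a ν) (D.b ν) (D.node ν).comm) s⟩

/-- the representative of a piece -/
noncomputable def rep (i : D.I) : S := Quotient.out i.2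

/-- exponents of a piece -/
noncomputable def pp (i : D.I) : ℕ := D.p i.1 (D.rep i)
noncomputable def qq (i : D.I) : ℕ := D.q i.1 (D.rep i)

theorem ord' (i : D.I) : Ord (D.a i.1) (D.b i.1) (D.rep i) (D.pp i) (D.qq i) := D.ord _ _

theorem mkI_rep (i : D.I) : D.mkI i.1 (D.rep i) = i := by
  obtain ⟨ν, o⟩ := i
  unfold mkI rep
  simp only
  rw [Quotient.out_eq]

theorem mkI_eq_iff {ν : ι} {s s' : S} :
    D.mkI ν s = D.mkI ν s' ↔ ∃ k l : ℤ, s' = (D.a ν ^ k * D.b ν ^ l) s := by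
  unfold mkI
  constructor
  · intro h
    have h1 := eq_of_heq (Sigma.mk.inj h).2
    exact Quotient.exact h1
  · intro h
    rw [Quotient.sound (s := orb (D.a ν) (D.b ν) (D.node ν).comm) h]

/-- a point of the fibre and the representative of its piece -/
theorem rep_mkI (ν : ι) (s : S) : ∃ k l : ℤ, D.rep (D.mkI ν s) = (D.a ν ^ k * D.b ν ^ l) s := by
  have h := D.mkI_rep (D.mkI ν s)
  exact D.mkI_eq_iff.1 h.symm

theorem finite_I [Finite ι] [Finite S] : Finite D.I := by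
  unfold I
  infer_instance

theorem countable_I [Countable ι] [Countable S] : Countable D.I := by
  unfold I
  infer_instance

/-- the model of a piece -/
abbrev M (i : D.I) : Type := OmE R (D.pp i) (D.qq i)

/-- the punctured model -/
def M0 (i : D.I) : Set (D.M i) := {y | y.1 0 ≠ 0 ∧ y.1 1 ≠ 0}

/-- the piece as a map -/
noncomputable def h (i : D.I) (x : D.M0 i) : X0 := th (D.L i.1) (D.pp i) (D.qq i) (D.rep i) x.1.1

theorem mem_Omp {i : D.I} (x : D.M0 i) : toP x.1.1 ∈ Omp R (D.pp i) (D.qq i) :=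
  ⟨x.1.2, x.2.1, x.2.2⟩

theorem isOpen_M0 (i : D.I) : IsOpen (D.M0 i) := by
  have h1 : IsOpen {y : Fin 2 → ℂ | y 0 ≠ 0 ∧ y 1 ≠ 0} :=
    (isOpen_ne_fun (continuous_apply 0) continuous_const).inter
      (isOpen_ne_fun (continuous_apply 1) continuous_const)
  exact h1.preimage continuous_subtype_val

/-- the coordinates of the punctured model -/
def co (i : D.I) (x : D.M0 i) : Omp R (D.pp i) (D.qq i) := ⟨toP x.1.1, D.mem_Omp x⟩

theorem co_emb (i : D.I) : IsOpenEmbedding (D.co i) := by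
  have ho : IsOpen (OmE R (D.pp i) (D.qq i)) := isOpen_OmE (D.node i.1).opR _ _
  have hval : IsOpenEmbedding (Subtype.val ∘ D.co i) :=
    toPH.isOpenEmbedding.comp (ho.isOpenEmbedding_subtypeVal.comp
      (D.isOpen_M0 i).isOpenEmbedding_subtypeVal)
  exact IsOpenEmbedding.of_comp _
      (isOpen_Omp (D.node i.1).opR (D.pp i) (D.qq i)).isOpenEmbedding_subtypeVal hval

theorem h_eq (i : D.I) (x : D.M0 i) :
    D.h i x = theta (D.L i.1) (D.pp i) (D.qq i) (D.rep i) (D.co i x : ℂ × ℂ) := rfl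

theorem h_emb (i : D.I) : IsOpenEmbedding (D.h i) := by
  have h1 := (D.node i.1).isOpenEmbedding_theta (D.ord' i)
  have h2 := h1.comp (D.co_emb i)
  have h3 : D.h i = (fun x : Omp R (D.pp i) (D.qq i) =>
      theta (D.L i.1) (D.pp i) (D.qq i) (D.rep i) (x : ℂ × ℂ)) ∘ D.co i := by
    funext x
    exact D.h_eq i x
  rw [h3]
  exact h2

theorem range_h (i : D.I) :
    range (D.h i) = theta (D.L i.1) (D.pp i) (D.qq i) (D.rep i) '' Omp R (D.pp i) (D.qq i) := by
  ext y
  constructor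
  · rintro ⟨x, rfl⟩
    exact ⟨_, D.mem_Omp x, rfl⟩
  · rintro ⟨w, hw, rfl⟩
    have hw1 : (toPH.symm w) ∈ OmE R (D.pp i) (D.qq i) := hw.1
    exact ⟨⟨⟨toPH.symm w, hw1⟩, hw.2.1, hw.2.2⟩, rfl⟩

theorem pr_h (i : D.I) (x : D.M0 i) :
    pr (D.h i x) = kap i.1 (pw (D.pp i) (D.qq i) (toP x.1.1)) :=
  (D.node i.1).pr_theta (D.mem_Omp x)

end defs

variable (D : Lifts R kap pr S) (E : YData R kap Y)

/-- The projection of a model. -/
noncomputable def m (i : D.I) (x : D.M i) : Y := E.kY i.1 (pw (D.pp i) (D.qq i) (toP x.1))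

theorem continuous_m (i : D.I) : Continuous (D.m E i) := by
  refine (E.cont i.1).comp_continuous ?_ fun x => x.2
  exact (continuous_pw _ _).comp (continuous_toP.comp continuous_subtype_val)

omit [TopologicalSpace U] in
/-- Compact subsets of the image of a chart have compact preimages. -/
theorem _root_.Vale.Agent.P300.Mod.YData.isCompact_preimage (E : YData R kap Y) (hR : IsOpen R)
    (ν : ι) {K : Set Y} (hK : IsCompact K) (hKN : K ⊆ E.kY ν '' R) :
    IsCompact (R ∩ E.kY ν ⁻¹' K) := by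
  have hemb : IsOpenEmbedding (fun w : R => E.kY ν w) := by
    refine IsOpenEmbedding.of_continuous_injective_isOpenMap ?_ ?_ ?_
    · exact continuousOn_iff_continuous_domRestrict.1 (E.cont ν)
    · intro x y h
      exact Subtype.ext (E.inj ν x.2 y.2 h)
    · intro W hW
      have h2 := E.opn ν ((↑) '' W : Set (ℂ × ℂ)) (by rintro _ ⟨y, _, rfl⟩; exact y.2)
        (hR.isOpenMap_subtype_val W hW)
      rwa [image_image] at h2
  have h1 : IsCompact ((fun w : R => E.kY ν w) ⁻¹' K) := by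
    refine hemb.isInducing.isCompact_preimage' hK ?_
    rintro y hy
    obtain ⟨w, hw, rfl⟩ := hKN hy
    exact ⟨⟨w, hw⟩, rfl⟩
  have h2 := h1.image continuous_subtype_val
  convert h2 using 1
  ext w
  constructor
  · rintro ⟨hw, hwK⟩
    exact ⟨⟨w, hw⟩, hwK, rfl⟩
  · rintro ⟨⟨w, hw⟩, hwK, rfl⟩
    exact ⟨hw, hwK⟩

theorem isCompact_m (i : D.I) {K : Set Y} (hK : IsCompact K) (hKN : K ⊆ E.kY i.1 '' R) :
    IsCompact (D.m E i ⁻¹' K) := by
  have h1 := E.isCompact_preimage (D.node i.1).opR i.1 hK hKN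
  have h2 := isCompact_preimage_pw (D.ord' i).p0 (D.ord' i).q0 h1
  have h3 := toPH.isCompact_preimage.2 h2
  rw [Topology.IsInducing.subtypeVal.isCompact_iff]
  convert h3 using 1
  ext x
  constructor
  · rintro ⟨y, hy, rfl⟩
    exact ⟨y.2, hy⟩
  · rintro ⟨hx, hxK⟩
    exact ⟨⟨x, hx⟩, hxK, rfl⟩

theorem finite_m (i : D.I) (y : Y) : (D.m E i ⁻¹' {y}).Finite := by
  rcases Set.eq_empty_or_nonempty (D.m E i ⁻¹' {y}) with h | ⟨x0, hx0⟩
  · rw [h]; exact finite_empty
  · have h1 := finite_fibre_pw (D.ord' i).p0 (D.ord' i).q0 (pw (D.pp i) (D.qq i) (toP x0.1))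
    refine Set.Finite.of_finite_image (f := fun x : D.M i => toP x.1) (h1.subset ?_) ?_
    · rintro _ ⟨x, hx, rfl⟩
      exact E.inj i.1 x.2 x0.2 (Eq.trans hx (Eq.symm hx0))
    · intro x _ y _ h
      exact Subtype.ext (toPH.injective h)

theorem disj_h {i j : D.I} (hij : i.1 = j.1) (hne : i ≠ j) :
    Disjoint (range (D.h i)) (range (D.h j)) := by
  rw [D.range_h, D.range_h]
  obtain ⟨ν, o⟩ := i
  obtain ⟨ν', o'⟩ := j
  obtain rfl : ν = ν' := hij
  refine (D.node ν).disjoint_image_theta (D.ord' ⟨ν, o⟩) ?_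
  intro k l h
  apply hne
  rw [← D.mkI_rep ⟨ν, o⟩, ← D.mkI_rep ⟨ν, o'⟩]
  exact D.mkI_eq_iff.2 ⟨k, l, h⟩

/-- The point `L z s` lies in the piece of `s`. -/
theorem L_mem (ν : ι) {z : ℂ × ℂ} (hz : z ∈ Rt R) (s : S) :
    D.L ν z.1 z.2 s ∈ range (D.h (D.mkI ν s)) := by
  rw [D.range_h]
  obtain ⟨k, l, h⟩ := D.rep_mkI ν s
  refine ((D.node ν).mem_range_theta_iff (D.ord' (D.mkI ν s)) hz s).2 ?_
  refine ⟨-k, -l, ?_⟩
  rw [h, ← Equiv.Perm.mul_apply]
  have h1 : Commute (D.b ν ^ (-l)) (D.a ν ^ k) := (D.node ν).comm.symm.zpow_zpow (-l) k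
  have h2 : D.a ν ^ (-k) * D.b ν ^ (-l) * (D.a ν ^ k * D.b ν ^ l) = 1 := by
    rw [mul_assoc, ← mul_assoc (D.b ν ^ (-l)), h1.eq, mul_assoc (D.a ν ^ k), ← zpow_add,
      neg_add_cancel, zpow_zero, mul_one, ← zpow_add, neg_add_cancel, zpow_zero]
  show s = (D.a ν ^ (-k) * D.b ν ^ (-l) * (D.a ν ^ k * D.b ν ^ l)) s
  rw [h2]
  rfl

include E in
theorem cov_h (x : X0) (ν : ι) (hx : E.inc (pr x) ∈ E.kY ν '' R) :
    ∃ i : D.I, i.1 = ν ∧ x ∈ range (D.h i) := by
  obtain ⟨w, hw, hwx⟩ := hx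
  have hwp : w ∈ Rp R := E.bdry ν w hw (hwx ▸ mem_range_self _)
  rw [← E.inc_kap ν w hwp] at hwx
  have h1 : kap ν w = pr x := E.inc_inj hwx
  have ex : w = (exp (log w.1), exp (log w.2)) := by
    rw [Complex.exp_log hwp.2.1, Complex.exp_log hwp.2.2]
  have hm : (log w.1, log w.2) ∈ Rt R := by
    show (exp (log w.1), exp (log w.2)) ∈ R
    rw [← ex]; exact hw
  obtain ⟨s, hs⟩ := (D.node ν).Lsurj _ hm x (by rw [← h1]; exact congrArg _ ex)
  refine ⟨D.mkI ν s, rfl, ?_⟩
  rw [← hs]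
  exact D.L_mem ν hm s

/-- The local models of `inc ∘ pr`. -/
noncomputable def models : H573.Models (fun x : X0 => E.inc (pr x)) where
  A := ι
  N ν := E.kY ν '' R
  isOpen_N ν := E.opn ν R subset_rfl (D.node ν).opR
  cover y := by
    obtain ⟨ν, w, hw, h⟩ := E.cover y
    exact ⟨ν, w, hw, h⟩
  I := D.I
  b i := i.1
  M i := D.M i
  topM i := inferInstance
  t3M i := inferInstance
  M0 i := D.M0 i
  isOpen_M0 i := D.isOpen_M0 i
  nonsep i x W hW := nonsep_aux (isOpen_OmE (D.node i.1).opR _ _) x W hW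
  h i := D.h i
  h_emb i := D.h_emb i
  m i := D.m E i
  m_cont i := D.continuous_m E i
  m_h i x := by
    rw [D.pr_h, E.inc_kap _ _ (pw_mem_Rp (D.mem_Omp x))]
    rfl
  m_mem i x := ⟨_, x.2, rfl⟩
  proper i K hK hKN := D.isCompact_m E i hK hKN
  fin i y := D.finite_m E i y
  disj i j hij hne := D.disj_h hij hne
  cov x ν hx := by
    obtain ⟨i, hi, hxi⟩ := D.cov_h E x ν hx
    exact ⟨i, hi, hxi⟩

end Lifts

end Vale.Agent.P300.Mod
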