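import Vale.Agent.P300.Spec.Kap142

/-!
# P300: every point of `U` lies in one of the fifteen star regions (interior part of the cover)
-/

open Set Complex

namespace Vale.Agent.P300.Mod

open Vale.Agent.P300.H142 (U W R)
open Vale.Agent.P300.Spec (kapInv)

/-- being real -/
def IsR (z : ℂ) : Prop := ∃ r : ℝ, (r : ℂ) = z

theorem mem_R_of_not {w : ℂ × ℂ} (h1 : ¬ IsR w.1) (h2 : ¬ IsR w.2) (h3 : ¬ IsR (w.1 * w.2)) :
    w ∈ R := fun t _ => ⟨fun h => h1 ⟨t, h.symm⟩, fun h => h2 ⟨t, h.symm⟩, fun h => h3 ⟨t, h.symm⟩⟩

theorem mem_R_of_lt {w : ℂ × ℂ} {a b c : ℝ} (h1 : w.1 = a) (h2 : w.2 = b) (h3 : w.1 * w.2 = c)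
    (ha : a < 1) (hb : b < 1) (hc : c < 1) : w ∈ R := by
  intro t ht
  refine ⟨fun h => ?_, fun h => ?_, fun h => ?_⟩
  · rw [h1] at h
    have := Complex.ofReal_injective h
    linarith
  · rw [h2] at h
    have := Complex.ofReal_injective h
    linarith
  · rw [h3] at h
    have := Complex.ofReal_injective h
    linarith

/-- **Interior part of the cover.** -/
theorem exists_kapInv_mem_R {q : ℂ × ℂ} (hq : q ∈ U) : ∃ ν : Fin 15, kapInv ν q ∈ R := by
  obtain ⟨x, l⟩ := q
  obtain ⟨hx, hx1, hl, hl1, hxl⟩ := hq
  simp only at hx hx1 hl hl1 hxl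
  have hX : 1 - x ≠ 0 := sub_ne_zero.2 (Ne.symm hx1)
  have hL : 1 - l ≠ 0 := sub_ne_zero.2 (Ne.symm hl1)
  have hD : x - l ≠ 0 := sub_ne_zero.2 hxl
  by_cases A0 : IsR l
  · obtain ⟨l, rfl⟩ := A0
    by_cases A1 : IsR x
    · -- everything is real
      obtain ⟨x, rfl⟩ := A1
      have hx' : x ≠ 0 := by exact_mod_cast hx
      have hl' : l ≠ 0 := by exact_mod_cast hl
      have hx1' : x ≠ 1 := by exact_mod_cast hx1
      have hl1' : l ≠ 1 := by exact_mod_cast hl1
      have hxl' : x ≠ l := by exact_mod_cast hxl
      have case1 : l < 1 → 1 / x < 1 → l / x < 1 → ∃ ν : Fin 15, kapInv ν ((x : ℂ), (l : ℂ)) ∈ R := by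
        intro h1 h2 h3
        refine ⟨1, mem_R_of_lt (a := l) (b := 1 / x) (c := l / x) rfl ?_ ?_ h1 h2 h3⟩
        · show (1 : ℂ) / x = _
          push_cast; rfl
        · show (l : ℂ) * (1 / x) = _
          push_cast; ring
      have case7 : (x - l) / (x * (1 - l)) < 1 → 1 - l < 1 → (x - l) / x < 1 →
          ∃ ν : Fin 15, kapInv ν ((x : ℂ), (l : ℂ)) ∈ R := by
        intro h1 h2 h3
        refine ⟨7, mem_R_of_lt (a := (x - l) / (x * (1 - l))) (b := 1 - l) (c := (x - l) / x)
          ?_ ?_ ?_ h1 h2 h3⟩
        · show ((x : ℂ) - l) / (x * (1 - l)) = _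
          push_cast; rfl
        · show (1 : ℂ) - l = _
          push_cast; rfl
        · show ((x : ℂ) - l) / (x * (1 - l)) * (1 - l) = _
          push_cast
          field_simp
      have case14 : x < 1 → 1 / l < 1 → x / l < 1 →
          ∃ ν : Fin 15, kapInv ν ((x : ℂ), (l : ℂ)) ∈ R := by
        intro h1 h2 h3
        refine ⟨14, mem_R_of_lt (a := x) (b := 1 / l) (c := x / l) rfl ?_ ?_ h1 h2 h3⟩
        · show (1 : ℂ) / l = _
          push_cast; rfl
        · show (x : ℂ) * (1 / l) = _
          push_cast; ring
      rcases lt_or_gt_of_ne hx1' with hxlt | hxgt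
      · rcases lt_or_gt_of_ne hx' with hx0 | hx0
        · -- x < 0
          rcases lt_or_gt_of_ne hl1' with hllt | hlgt
          · rcases lt_or_gt_of_ne hl' with hl0 | hl0
            · rcases lt_or_gt_of_ne hxl' with h | h
              · refine case1 hllt ?_ ?_
                · have : 1 / x < 0 := by
                    rw [one_div]; exact inv_lt_zero.2 hx0
                  linarith
                · rw [div_lt_one_of_neg hx0]; exact h
              · refine case14 hxlt ?_ ?_
                · have : 1 / l < 0 := by
                    rw [one_div]; exact inv_lt_zero.2 hl0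
                  linarith
                · rw [div_lt_one_of_neg hl0]; exact h
            · refine case1 hllt ?_ ?_
              · have : 1 / x < 0 := by
                  rw [one_div]; exact inv_lt_zero.2 hx0
                linarith
              · have : l / x < 0 := div_neg_of_pos_of_neg hl0 hx0
                linarith
          · have hl0 : 0 < l := by linarith
            refine case14 hxlt ?_ ?_
            · rw [div_lt_one hl0]; exact hlgt
            · have : x / l < 0 := div_neg_of_neg_of_pos hx0 hl0
              linarith
        · -- 0 < x < 1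
          rcases lt_or_gt_of_ne hl1' with hllt | hlgt
          · rcases lt_or_gt_of_ne hl' with hl0 | hl0
            · refine case14 hxlt ?_ ?_
              · have : 1 / l < 0 := by
                  rw [one_div]; exact inv_lt_zero.2 hl0
                linarith
              · have : x / l < 0 := div_neg_of_pos_of_neg hx0 hl0
                linarith
            · have h1 : 0 < 1 - l := by linarith
              refine case7 ?_ (by linarith) ?_
              · rw [div_lt_one (mul_pos hx0 h1)]
                nlinarith
              · rw [div_lt_one hx0]; linarith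
          · have hl0 : 0 < l := by linarith
            refine case14 hxlt ?_ ?_
            · rw [div_lt_one hl0]; exact hlgt
            · rw [div_lt_one hl0]; linarith
      · -- 1 < x
        have hx0 : 0 < x := by linarith
        rcases lt_or_gt_of_ne hl1' with hllt | hlgt
        · refine case1 hllt ?_ ?_
          · rw [div_lt_one hx0]; exact hxgt
          · rw [div_lt_one hx0]; linarith
        · have hl0 : 0 < l := by linarith
          have h1 : 1 - l < 0 := by linarith
          refine case7 ?_ (by linarith) ?_
          · rw [div_lt_one_of_neg (mul_neg_of_pos_of_neg hx0 h1)]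
            nlinarith
          · rw [div_lt_one hx0]; linarith
    · -- `l` real, `x` not real: the chart 8
      refine ⟨8, mem_R_of_not ?_ ?_ ?_⟩
      · rintro ⟨r, hr⟩
        replace hr : (r : ℂ) = x / l := hr
        exact A1 ⟨r * l, by push_cast; rw [hr]; field_simp⟩
      · rintro ⟨r, hr⟩
        replace hr : (r : ℂ) = (1 - l) / (1 - x) := hr
        have hr0 : (r : ℂ) ≠ 0 := by rw [hr]; exact div_ne_zero hL hX
        refine A1 ⟨1 - (1 - l) / r, ?_⟩
        push_cast
        rw [hr]
        field_simp
        ring
      · rintro ⟨r, hr⟩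
        replace hr : (r : ℂ) = x / l * ((1 - l) / (1 - x)) := hr
        -- r l (1 - x) = x (1 - l)
        have h1 : (r : ℂ) * l * (1 - x) = x * (1 - l) := by
          rw [hr]; field_simp
        have h2 : (r : ℂ) * l = x * (1 - l + r * l) := by linear_combination h1
        have h3 : (1 - l + r * l : ℂ) ≠ 0 := by
          intro h
          rw [h, mul_zero] at h2
          rw [h2, add_zero] at h
          exact hL h
        refine A1 ⟨r * l / (1 - l + r * l), ?_⟩
        push_cast
        rw [div_eq_iff h3]
        exact h2
  · by_cases A1 : IsR x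
    · -- `x` real, `l` not real: the chart 7
      obtain ⟨x, rfl⟩ := A1
      refine ⟨7, mem_R_of_not ?_ ?_ ?_⟩
      · rintro ⟨r, hr⟩
        replace hr : (r : ℂ) = (x - l) / (x * (1 - l)) := hr
        have h1 : (r : ℂ) * x * (1 - l) = x - l := by
          rw [hr]; field_simp
        have h2 : (x : ℂ) * (1 - r) = l * (1 - r * x) := by linear_combination -h1
        have h3 : (1 - r * x : ℂ) ≠ 0 := by
          intro h
          rw [h, mul_zero] at h2
          rcases mul_eq_zero.1 h2 with h4 | h4
          · exact hx h4
          · have h5 : (r : ℂ) = 1 := by linear_combination -h4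
            rw [h5, one_mul] at h
            exact hX h
        refine A0 ⟨x * (1 - r) / (1 - r * x), ?_⟩
        push_cast
        rw [h2]
        field_simp
      · rintro ⟨r, hr⟩
        replace hr : (r : ℂ) = 1 - l := hr
        exact A0 ⟨1 - r, by push_cast; rw [hr]; ring⟩
      · rintro ⟨r, hr⟩
        replace hr : (r : ℂ) = (x - l) / (x * (1 - l)) * (1 - l) := hr
        refine A0 ⟨x * (1 - r), ?_⟩
        push_cast
        rw [hr]
        field_simp
        ring
    · by_cases A2 : IsR (l / x)
      · -- the chart 2
        obtain ⟨r, hr⟩ := A2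
        have hlr : l = r * x := by rw [hr]; field_simp
        have hr0 : (r : ℂ) ≠ 0 := by rw [hr]; exact div_ne_zero hl hx
        have hr1 : (1 - r : ℂ) ≠ 0 := by
          intro h
          apply hD
          rw [hlr]
          linear_combination x * h
        refine ⟨2, mem_R_of_not ?_ ?_ ?_⟩
        · rintro ⟨s, hs⟩
          replace hs : (s : ℂ) = (x * (1 - l)) / (x - l) := hs
          have h1 : (s : ℂ) * (x - l) = x * (1 - l) := by
            rw [hs]; field_simp
          rw [hlr] at h1
          have h2 : (s : ℂ) * (1 - r) = 1 - r * x := by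
            apply mul_left_cancel₀ hx
            linear_combination h1
          refine A1 ⟨(1 - s * (1 - r)) / r, ?_⟩
          push_cast
          rw [h2]
          field_simp
          ring
        · rintro ⟨s, hs⟩
          replace hs : (s : ℂ) = 1 / x := hs
          refine A1 ⟨1 / s, ?_⟩
          push_cast
          rw [hs]
          field_simp
        · rintro ⟨s, hs⟩
          replace hs : (s : ℂ) = (x * (1 - l)) / (x - l) * (1 / x) := hs
          have h1 : (s : ℂ) * (x - l) = 1 - l := by
            rw [hs]; field_simp
          rw [hlr] at h1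
          have h2 : x * (s * (1 - r) + r) = 1 := by linear_combination h1
          have h3 : (s * (1 - r) + r : ℂ) ≠ 0 := by
            intro h
            rw [h, mul_zero] at h2
            exact zero_ne_one h2
          refine A1 ⟨1 / (s * (1 - r) + r), ?_⟩
          push_cast
          rw [div_eq_iff h3]
          exact h2.symm
      · -- the chart 1
        refine ⟨1, mem_R_of_not ?_ ?_ ?_⟩
        · exact A0
        · rintro ⟨s, hs⟩
          replace hs : (s : ℂ) = 1 / x := hs
          refine A1 ⟨1 / s, ?_⟩
          push_cast
          rw [hs]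
          field_simp
        · rintro ⟨s, hs⟩
          replace hs : (s : ℂ) = l * (1 / x) := hs
          refine A2 ⟨s, ?_⟩
          rw [hs]
          ring

end Vale.Agent.P300.Mod
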