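import Mathlib.Geometry.Manifold.IsManifold.Basic
import Mathlib.Analysis.Complex.Basic

/-!
# P300, block [X]: a space covered by pieces, as a closure

`W` is a space, `f : W → Q` a continuous map to a Hausdorff space, `th j : Om' j → W` local
parametrisations such that `f ∘ th j` extends continuously to `g j : Om j → Q`.  If points with
the same image belong to the same germ, then `X = closure (range f)` is compact and the `g j` are
charts of `X`.
-/

open Set Filter Topology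
open scoped Manifold ContDiff

namespace Vale.Agent.P300.H921

/-- Pieces of a space `W`, with extensions of a map `f : W → Q`. -/
structure Pieces (E W Q J : Type*) [TopologicalSpace E] [TopologicalSpace W]
    [TopologicalSpace Q] where
  /-- domain of the piece -/
  Om : J → Set E
  /-- the dense open part -/
  Om' : J → Set E
  /-- parametrisation -/
  th : J → E → W
  /-- the map -/
  f : W → Q
  /-- extension -/
  g : J → E → Q
  /-- finitely many pieces -/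
  F : Finset J
  /-- compact parts -/
  K : J → Set E
  isOpen : ∀ j, IsOpen (Om j)
  isOpen' : ∀ j, IsOpen (Om' j)
  sub : ∀ j, Om' j ⊆ Om j
  dense : ∀ j, Om j ⊆ closure (Om' j)
  th_cont : ∀ j, ContinuousOn (th j) (Om' j)
  th_inj : ∀ j, InjOn (th j) (Om' j)
  th_open : ∀ j, ∀ A ⊆ Om' j, IsOpen A → IsOpen (th j '' A)
  f_cont : Continuous f
  g_cont : ∀ j, ContinuousOn (g j) (Om j)
  g_eq : ∀ j, ∀ x ∈ Om' j, g j x = f (th j x)
  K_comp : ∀ j ∈ F, IsCompact (K j)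
  K_sub : ∀ j ∈ F, K j ⊆ Om j
  cover : ∀ w, ∃ j ∈ F, ∃ x ∈ K j ∩ Om' j, th j x = w

namespace Pieces

variable {E W Q J : Type*} [TopologicalSpace E] [TopologicalSpace W] [TopologicalSpace Q]
  (P : Pieces E W Q J)

/-- `φ` maps the germ of the piece `j` at `a` to the piece `k`. -/
def Germ (j k : J) (a : E) (φ : E → E) : Prop :=
  (∀ᶠ x in 𝓝 a, ContinuousAt φ x) ∧ φ a ∈ P.Om k ∧
    ∀ᶠ x in 𝓝 a, x ∈ P.Om' j → φ x ∈ P.Om' k ∧ P.th k (φ x) = P.th j x

/-- Points with the same image belong to the same germ. -/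
def Sep : Prop :=
  ∀ j k a b, a ∈ P.Om j → b ∈ P.Om k → P.g j a = P.g k b → ∃ φ : E → E, P.Germ j k a φ ∧ φ a = b

/-- The space. -/
def X : Set Q := ⋃ j, P.g j '' P.Om j

variable {P}

theorem mem_X {j : J} {a : E} (ha : a ∈ P.Om j) : P.g j a ∈ P.X :=
  mem_iUnion.mpr ⟨j, a, ha, rfl⟩

theorem range_subset : range P.f ⊆ ⋃ j ∈ P.F, P.g j '' P.K j := by
  rintro _ ⟨w, rfl⟩
  obtain ⟨j, hj, x, hx, rfl⟩ := P.cover w
  exact mem_biUnion hj ⟨x, hx.1, P.g_eq j x hx.2⟩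

theorem isCompact_biUnion : IsCompact (⋃ j ∈ P.F, P.g j '' P.K j) :=
  P.F.isCompact_biUnion fun j hj => (P.K_comp j hj).image_of_continuousOn
    ((P.g_cont j).mono (P.K_sub j hj))

theorem g_mem_closure {j : J} {a : E} (ha : a ∈ P.Om j) : P.g j a ∈ closure (range P.f) := by
  have h1 : P.g j a ∈ closure (P.g j '' P.Om' j) :=
    ((P.g_cont j a ha).mono (P.sub j)).mem_closure_image (P.dense j ha)
  refine closure_mono ?_ h1
  rintro _ ⟨x, hx, rfl⟩
  exact ⟨P.th j x, (P.g_eq j x hx).symm⟩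

theorem X_eq [T2Space Q] : P.X = ⋃ j ∈ P.F, P.g j '' P.K j := by
  apply Subset.antisymm
  · rintro q hq
    obtain ⟨j, a, ha, rfl⟩ := mem_iUnion.mp hq
    exact closure_minimal range_subset isCompact_biUnion.isClosed (g_mem_closure ha)
  · rintro q hq
    obtain ⟨j, hj, x, hx, rfl⟩ := mem_iUnion₂.mp hq
    exact mem_X (P.K_sub j hj hx)

theorem isCompact_X [T2Space Q] : IsCompact P.X := by
  rw [X_eq]; exact isCompact_biUnion

theorem X_eq_closure [T2Space Q] : P.X = closure (range P.f) := by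
  apply Subset.antisymm
  · rintro q hq
    obtain ⟨j, a, ha, rfl⟩ := mem_iUnion.mp hq
    exact g_mem_closure ha
  · refine closure_minimal ?_ isCompact_X.isClosed
    rintro _ ⟨w, rfl⟩
    obtain ⟨j, hj, x, hx, rfl⟩ := P.cover w
    rw [← P.g_eq j x hx.2]
    exact mem_X (P.sub j hx.2)

/-- The germ maps are compatible with the extensions. -/
theorem Germ.g_eq [T2Space Q] {j k : J} {a : E} {φ : E → E} (h : P.Germ j k a φ)
    (ha : a ∈ P.Om j) : ∀ᶠ x in 𝓝 a, x ∈ P.Om j ∧ φ x ∈ P.Om k ∧ P.g k (φ x) = P.g j x := by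
  obtain ⟨h1, h2, h3⟩ := h
  have h4 : ∀ᶠ x in 𝓝 a, φ x ∈ P.Om k :=
    h1.self_of_nhds.eventually_mem ((P.isOpen k).mem_nhds h2)
  filter_upwards [h1, h4, (P.isOpen j).mem_nhds ha, h3.eventually_nhds] with x x1 x2 x3 x4
  refine ⟨x3, x2, ?_⟩
  -- `x` is a limit of points of `Om' j`
  have hne : (𝓝[P.Om' j] x).NeBot := mem_closure_iff_nhdsWithin_neBot.mp (P.dense j x3)
  have t1 : Tendsto (fun y => P.g j y) (𝓝[P.Om' j] x) (𝓝 (P.g j x)) :=
    (P.g_cont j x x3).mono_left (nhdsWithin_mono x (P.sub j))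
  have t2 : Tendsto (fun y => P.g k (φ y)) (𝓝[P.Om' j] x) (𝓝 (P.g k (φ x))) :=
    ((P.g_cont k (φ x) x2).continuousAt ((P.isOpen k).mem_nhds x2)).tendsto.comp
      (x1.tendsto.mono_left nhdsWithin_le_nhds)
  refine tendsto_nhds_unique (t2.congr' ?_) t1
  filter_upwards [nhdsWithin_le_nhds x4, self_mem_nhdsWithin] with y y1 y2
  obtain ⟨y3, y4⟩ := y1 y2
  rw [P.g_eq k _ y3, y4, P.g_eq j y y2]

theorem injOn_g [T2Space E] (hs : P.Sep) (j : J) : InjOn (P.g j) (P.Om j) := by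
  intro a ha b hb hab
  obtain ⟨φ, ⟨h1, h2, h3⟩, h4⟩ := hs j j a b ha hb hab
  have hne : (𝓝[P.Om' j] a).NeBot := mem_closure_iff_nhdsWithin_neBot.mp (P.dense j ha)
  have t1 : Tendsto φ (𝓝[P.Om' j] a) (𝓝 (φ a)) :=
    h1.self_of_nhds.tendsto.mono_left nhdsWithin_le_nhds
  have t2 : Tendsto (fun x : E => x) (𝓝[P.Om' j] a) (𝓝 a) :=
    tendsto_id.mono_left nhdsWithin_le_nhds
  have h5 : φ a = a := by
    refine tendsto_nhds_unique (t1.congr' ?_) t2
    filter_upwards [nhdsWithin_le_nhds h3, self_mem_nhdsWithin] with y y1 y2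
    obtain ⟨y3, y4⟩ := y1 y2
    exact P.th_inj j y3 y2 y4
  rw [← h4, h5]

/-- **The extensions are open maps to `X`.** -/
theorem open_g [T2Space Q] (hs : P.Sep) (j : J) {A : Set E} (hA : IsOpen A) (hAj : A ⊆ P.Om j) :
    ∃ V : Set Q, IsOpen V ∧ P.X ∩ V = P.g j '' A := by
  -- the complement in `X` is closed
  suffices h : IsClosed (P.X \ P.g j '' A) by
    refine ⟨(P.X \ P.g j '' A)ᶜ, h.isOpen_compl, ?_⟩
    ext q
    constructor
    · rintro ⟨h1, h2⟩
      by_contra h3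
      exact h2 ⟨h1, h3⟩
    · rintro h1
      refine ⟨?_, fun h2 => h2.2 h1⟩
      obtain ⟨a, ha, rfl⟩ := h1
      exact mem_X (hAj ha)
  have hX : P.X \ P.g j '' A = ⋃ k ∈ P.F, P.g k '' (P.K k ∩ {b | P.g k b ∉ P.g j '' A}) := by
    rw [X_eq]
    ext q
    simp only [mem_diff, mem_iUnion, mem_image, mem_inter_iff, mem_setOf_eq]
    constructor
    · rintro ⟨⟨k, hk, b, hb, rfl⟩, h2⟩
      exact ⟨k, hk, b, ⟨hb, h2⟩, rfl⟩
    · rintro ⟨k, hk, b, ⟨hb, h2⟩, rfl⟩
      exact ⟨⟨k, hk, b, hb, rfl⟩, h2⟩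
  rw [hX]
  refine P.F.finite_toSet.isClosed_biUnion fun k hk => ?_
  -- each of these is the image of a compact set
  have hcl : P.K k ∩ {b | P.g k b ∉ P.g j '' A} = P.K k ∩ closure (P.K k ∩
      {b | P.g k b ∉ P.g j '' A}) := by
    apply Subset.antisymm
    · exact fun b hb => ⟨hb.1, subset_closure hb⟩
    · rintro b ⟨hb, hbc⟩
      refine ⟨hb, ?_⟩
      rintro ⟨a, ha, hab⟩
      obtain ⟨φ, hφ, hφb⟩ := hs k j b a (P.K_sub k hk hb) (hAj ha) hab.symm
      have h1 := hφ.g_eq (P.K_sub k hk hb)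
      have h2 : ∀ᶠ x in 𝓝 b, φ x ∈ A :=
        hφ.1.self_of_nhds.eventually_mem (by rw [hφb]; exact hA.mem_nhds ha)
      obtain ⟨x, ⟨x1, x2⟩, x3, x4⟩ := mem_closure_iff_nhds.mp hbc _ (h1.and h2)
      exact x4 ⟨φ x, x2, x1.2.2⟩
  rw [hcl]
  exact (((P.K_comp k hk).inter_right isClosed_closure).image_of_continuousOn
    ((P.g_cont k).mono (inter_subset_left.trans (P.K_sub k hk)))).isClosed

theorem f_mem_X [T2Space Q] (w : W) : P.f w ∈ P.X := by
  rw [X_eq_closure]; exact subset_closure ⟨w, rfl⟩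

theorem injective_f (hs : P.Sep) : Function.Injective P.f := by
  intro w w' h
  obtain ⟨j, -, a, ha, rfl⟩ := P.cover w
  obtain ⟨k, -, b, hb, rfl⟩ := P.cover w'
  rw [← P.g_eq j a ha.2, ← P.g_eq k b hb.2] at h
  obtain ⟨φ, ⟨-, -, h3⟩, h4⟩ := hs j k a b (P.sub j ha.2) (P.sub k hb.2) h
  have h5 := h3.self_of_nhds ha.2
  rw [h4] at h5
  exact h5.2.symm

theorem open_f [T2Space Q] (hs : P.Sep) {A : Set W} (hA : IsOpen A) :
    ∃ V : Set Q, IsOpen V ∧ P.X ∩ V = P.f '' A := by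
  have h1 : ∀ j : J, ∃ V : Set Q, IsOpen V ∧ P.X ∩ V = P.g j '' (P.Om' j ∩ P.th j ⁻¹' A) :=
    fun j => open_g hs j ((P.th_cont j).isOpen_inter_preimage (P.isOpen' j) hA)
      (inter_subset_left.trans (P.sub j))
  choose V hV hVX using h1
  refine ⟨⋃ j, V j, isOpen_iUnion hV, ?_⟩
  rw [inter_iUnion]
  ext q
  simp only [hVX, mem_iUnion]
  constructor
  · rintro ⟨j, x, ⟨hx1, hx2⟩, rfl⟩
    exact ⟨P.th j x, hx2, (P.g_eq j x hx1).symm⟩
  · rintro ⟨w, hw, rfl⟩
    obtain ⟨j, -, a, ha, rfl⟩ := P.cover w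
    exact ⟨j, a, ⟨ha.2, hw⟩, P.g_eq j a ha.2⟩

/-! ### Topology of `X` -/

/-- The chart `j` as a map to `X`. -/
noncomputable def gX (j : J) (x : P.Om j) : P.X := ⟨P.g j x, mem_X x.2⟩

theorem isOpenEmbedding_gX [T2Space Q] [T2Space E] (hs : P.Sep) (j : J) :
    IsOpenEmbedding (gX (P := P) j) := by
  refine .of_continuous_injective_isOpenMap ?_ ?_ ?_
  · exact (continuousOn_iff_continuous_restrict.mp (P.g_cont j)).subtype_mk _
  · intro x y h
    exact Subtype.ext (injOn_g hs j x.2 y.2 (congrArg Subtype.val h))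
  · intro A hA
    obtain ⟨B, hB, rfl⟩ := isOpen_induced_iff.mp hA
    obtain ⟨V, hV, hVX⟩ := open_g hs j (A := P.Om j ∩ B) ((P.isOpen j).inter hB)
      inter_subset_left
    refine isOpen_induced_iff.mpr ⟨V, hV, ?_⟩
    ext q
    constructor
    · intro hq
      have : (q : Q) ∈ P.g j '' (P.Om j ∩ B) := by rw [← hVX]; exact ⟨q.2, hq⟩
      obtain ⟨x, ⟨hx1, hx2⟩, hx⟩ := this
      exact ⟨⟨x, hx1⟩, hx2, Subtype.ext hx⟩
    · rintro ⟨x, hx, rfl⟩
      have : P.g j x ∈ P.X ∩ V := by rw [hVX]; exact ⟨x, ⟨x.2, hx⟩, rfl⟩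
      exact this.2

/-- The dense open part. -/
noncomputable def fX [T2Space Q] (w : W) : P.X := ⟨P.f w, f_mem_X w⟩

theorem isOpenEmbedding_fX [T2Space Q] (hs : P.Sep) : IsOpenEmbedding (fX (P := P)) := by
  refine .of_continuous_injective_isOpenMap (P.f_cont.subtype_mk _) ?_ ?_
  · intro w w' h
    exact injective_f hs (congrArg Subtype.val h)
  · intro A hA
    obtain ⟨V, hV, hVX⟩ := open_f hs hA
    refine isOpen_induced_iff.mpr ⟨V, hV, ?_⟩
    ext q
    constructor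
    · intro hq
      have : (q : Q) ∈ P.f '' A := by rw [← hVX]; exact ⟨q.2, hq⟩
      obtain ⟨x, hx2, hx⟩ := this
      exact ⟨x, hx2, Subtype.ext hx⟩
    · rintro ⟨x, hx, rfl⟩
      have : P.f x ∈ P.X ∩ V := by rw [hVX]; exact ⟨x, hx, rfl⟩
      exact this.2

theorem denseRange_fX [T2Space Q] : DenseRange (fX (P := P)) := by
  intro q
  rw [closure_subtype]
  have h1 : (q : Q) ∈ closure (range P.f) := by rw [← X_eq_closure]; exact q.2
  refine closure_mono ?_ h1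
  rintro _ ⟨w, rfl⟩
  exact ⟨fX w, ⟨w, rfl⟩, rfl⟩

theorem compactSpace_X [T2Space Q] : CompactSpace P.X := isCompact_iff_compactSpace.mp isCompact_X

theorem surj_gX [T2Space Q] (q : P.X) : ∃ j, ∃ x : P.Om j, gX j x = q := by
  obtain ⟨j, x, hx, h⟩ := mem_iUnion.mp q.2
  exact ⟨j, ⟨x, hx⟩, Subtype.ext h⟩

end Pieces

end Vale.Agent.P300.H921
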