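import Vale.Agent.P300.H921.XGlue
import Mathlib.Geometry.Manifold.ContMDiff.Basic
import Mathlib.Geometry.Manifold.ContMDiff.Atlas
import Mathlib.Geometry.Manifold.ContMDiff.NormedSpace

/-!
# P300, block [X]: the complex manifold `X`
-/

open Set Filter Topology
open scoped Manifold ContDiff

namespace Vale.Agent.P300.H921

namespace Pieces

variable {E W Q J : Type*} [NormedAddCommGroup E] [NormedSpace ℂ E] [TopologicalSpace W]
  [TopologicalSpace Q] (P : Pieces E W Q J)

/-- Points with the same image belong to the same germ, by a holomorphic map. -/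
def SepHol : Prop :=
  ∀ j k a b, a ∈ P.Om j → b ∈ P.Om k → P.g j a = P.g k b →
    ∃ φ : E → E, P.Germ j k a φ ∧ φ a = b ∧ ContDiffAt ℂ ω φ a

variable {P}

theorem SepHol.sep (h : P.SepHol) : P.Sep := fun j k a b ha hb hab =>
  let ⟨φ, h1, h2, _⟩ := h j k a b ha hb hab
  ⟨φ, h1, h2⟩

variable [T2Space Q]

/-- The parametrisation `j` as an open partial homeomorphism. -/
noncomputable def chI (hs : P.Sep) (j : J) (hj : Nonempty (P.Om j)) :
    OpenPartialHomeomorph P.X E :=
  ((isOpenEmbedding_gX hs j).toOpenPartialHomeomorph _).symm.trans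
    ((P.isOpen j).isOpenEmbedding_subtypeVal.toOpenPartialHomeomorph _)

theorem chI_source (hs : P.Sep) (j : J) (hj : Nonempty (P.Om j)) :
    (chI hs j hj).source = range (gX (P := P) j) := by
  unfold chI
  simp

theorem chI_target (hs : P.Sep) (j : J) (hj : Nonempty (P.Om j)) :
    (chI hs j hj).target = P.Om j := by
  ext x
  simp only [chI, OpenPartialHomeomorph.trans_target, mem_inter_iff, mem_preimage,
    IsOpenEmbedding.toOpenPartialHomeomorph_target, Subtype.range_coe_subtype,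
    OpenPartialHomeomorph.symm_target, IsOpenEmbedding.toOpenPartialHomeomorph_source, mem_univ,
    and_true]
  rfl

theorem chI_apply (hs : P.Sep) (j : J) (hj : Nonempty (P.Om j)) (x : P.Om j) :
    chI hs j hj (gX j x) = x := by
  have h := (isOpenEmbedding_gX hs j).toOpenPartialHomeomorph_left_inv (x := x)
  show (((isOpenEmbedding_gX hs j).toOpenPartialHomeomorph _).symm (gX j x) : E) = x
  rw [h]

theorem chI_symm_apply (hs : P.Sep) (j : J) (hj : Nonempty (P.Om j)) {x : E} (hx : x ∈ P.Om j) :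
    (chI hs j hj).symm x = gX j ⟨x, hx⟩ := by
  have h := (chI hs j hj).left_inv (x := gX j ⟨x, hx⟩) (by rw [chI_source]; exact ⟨_, rfl⟩)
  rwa [chI_apply] at h

omit [NormedSpace ℂ E] in
theorem exists_piece (q : P.X) : ∃ j, ∃ _ : Nonempty (P.Om j), q ∈ range (gX (P := P) j) := by
  obtain ⟨j, x, hx⟩ := surj_gX q
  exact ⟨j, ⟨x⟩, x, hx⟩

/-- The charts. -/
@[reducible]
noncomputable def charted (hs : P.Sep) : ChartedSpace E P.X where
  atlas := {e | ∃ j hj, e = chI hs j hj}
  chartAt q := chI hs (exists_piece q).choose (exists_piece q).choose_spec.choose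
  mem_chart_source q := by
    rw [chI_source]
    exact (exists_piece q).choose_spec.choose_spec
  chart_mem_atlas q := ⟨_, _, rfl⟩

/-- Transition maps are germ maps. -/
theorem transition (hs : P.Sep) (j k : J) (hj : Nonempty (P.Om j)) (hk : Nonempty (P.Om k))
    {a : E} (ha : a ∈ P.Om j) {φ : E → E} (hφ : P.Germ j k a φ) :
    ∀ᶠ x in 𝓝 a, chI hs k hk ((chI hs j hj).symm x) = φ x := by
  filter_upwards [hφ.g_eq ha] with x hx
  obtain ⟨h1, h2, h3⟩ := hx
  rw [chI_symm_apply hs j hj h1]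
  have : gX (P := P) j ⟨x, h1⟩ = gX k ⟨φ x, h2⟩ := Subtype.ext h3.symm
  rw [this, chI_apply]

theorem isManifold (hs : P.SepHol) :
    @IsManifold ℂ _ E _ _ E _ 𝓘(ℂ, E) ω P.X _ (charted hs.sep) := by
  letI := charted hs.sep
  refine isManifold_of_contDiffOn 𝓘(ℂ, E) ω P.X ?_
  rintro e e' ⟨j, hj, rfl⟩ ⟨k, hk, rfl⟩
  simp only [modelWithCornersSelf_coe, modelWithCornersSelf_coe_symm, Function.id_comp,
    Function.comp_id, preimage_id_eq, id_eq, range_id, inter_univ]
  intro a ha
  rw [OpenPartialHomeomorph.trans_source, OpenPartialHomeomorph.symm_source, chI_target] at ha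
  obtain ⟨ha1, ha2⟩ := ha
  rw [mem_preimage, chI_source, chI_symm_apply _ _ _ ha1] at ha2
  obtain ⟨b, hb⟩ := ha2
  obtain ⟨φ, h1, h2, h3⟩ := hs j k a b ha1 b.2 (congrArg Subtype.val hb).symm
  refine (h3.congr_of_eventuallyEq ?_).contDiffWithinAt
  filter_upwards [transition hs.sep j k hj hk ha1 h1] with x hx
  exact hx

/-- The parametrisations are holomorphic. -/
theorem contMDiffOn_chI_symm (hs : P.SepHol) (j : J) (hj : Nonempty (P.Om j)) :
    letI := charted hs.sep
    ContMDiffOn 𝓘(ℂ, E) 𝓘(ℂ, E) ω (chI hs.sep j hj).symm (P.Om j) := by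
  letI := charted hs.sep
  haveI := isManifold hs
  have h := contMDiffOn_of_mem_maximalAtlas (I := 𝓘(ℂ, E)) (n := ω)
    (IsManifold.subset_maximalAtlas (I := 𝓘(ℂ, E)) (n := ω)
      (show chI hs.sep j hj ∈ atlas E P.X from ⟨j, hj, rfl⟩))
  have h' := contMDiffOn_symm_of_mem_maximalAtlas (I := 𝓘(ℂ, E)) (n := ω)
    (IsManifold.subset_maximalAtlas (I := 𝓘(ℂ, E)) (n := ω)
      (show chI hs.sep j hj ∈ atlas E P.X from ⟨j, hj, rfl⟩))
  rwa [chI_target] at h'

theorem contMDiffOn_chI (hs : P.SepHol) (j : J) (hj : Nonempty (P.Om j)) :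
    letI := charted hs.sep
    ContMDiffOn 𝓘(ℂ, E) 𝓘(ℂ, E) ω (chI hs.sep j hj) (range (gX (P := P) j)) := by
  letI := charted hs.sep
  haveI := isManifold hs
  have h := contMDiffOn_of_mem_maximalAtlas (I := 𝓘(ℂ, E)) (n := ω)
    (IsManifold.subset_maximalAtlas (I := 𝓘(ℂ, E)) (n := ω)
      (show chI hs.sep j hj ∈ atlas E P.X from ⟨j, hj, rfl⟩))
  rwa [chI_source] at h

/-- **Criterion**: a map from `X` is holomorphic at `g j a` if it is so in the piece `j`. -/
theorem contMDiffAt_of (hs : P.SepHol) {F M H : Type*} [NormedAddCommGroup F] [NormedSpace ℂ F]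
    [TopologicalSpace H] {I : ModelWithCorners ℂ F H} [TopologicalSpace M] [ChartedSpace H M]
    {h : P.X → M} {j : J} (a : P.Om j) {G : E → M}
    (hG : ContMDiffAt 𝓘(ℂ, E) I ω G a) (hh : ∀ᶠ x in 𝓝 (a : E), ∀ hx : x ∈ P.Om j,
      h (gX j ⟨x, hx⟩) = G x) :
    letI := charted hs.sep
    ContMDiffAt 𝓘(ℂ, E) I ω h (gX j a) := by
  letI := charted hs.sep
  have hj : Nonempty (P.Om j) := ⟨a⟩
  have h1 : ContMDiffAt 𝓘(ℂ, E) 𝓘(ℂ, E) ω (chI hs.sep j hj) (gX j a) :=
    (contMDiffOn_chI hs j hj).contMDiffAt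
      ((isOpenEmbedding_gX hs.sep j).isOpen_range.mem_nhds ⟨a, rfl⟩)
  have h2 : chI hs.sep j hj (gX j a) = a := chI_apply hs.sep j hj a
  have h3 : ContMDiffAt 𝓘(ℂ, E) I ω (G ∘ chI hs.sep j hj) (gX j a) :=
    ContMDiffAt.comp (gX j a) (by rw [h2]; exact hG) h1
  refine h3.congr_of_eventuallyEq ?_
  have h4 : Tendsto (chI hs.sep j hj) (𝓝 (gX j a)) (𝓝 (a : E)) := by
    have := h1.continuousAt.tendsto
    rwa [h2] at this
  filter_upwards [h4.eventually hh,
    (isOpenEmbedding_gX hs.sep j).isOpen_range.mem_nhds ⟨a, rfl⟩] with q hq hqr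
  obtain ⟨x, rfl⟩ := hqr
  have h5 : chI hs.sep j hj (gX j x) = x := chI_apply hs.sep j hj x
  rw [h5] at hq
  rw [Function.comp_apply, h5]
  exact hq x.2

omit [NormedSpace ℂ E] in
theorem connectedSpace_X [ConnectedSpace W] : ConnectedSpace P.X where
  toPreconnectedSpace := (denseRange_fX (P := P)).preconnectedSpace
    (P.f_cont.subtype_mk fun w => f_mem_X w)
  toNonempty := (inferInstance : Nonempty W).map fX

end Pieces

end Vale.Agent.P300.H921
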